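import Crest.Agent.X262.Tr89.Pb
import Crest.Agent.X262.Vb.Bas0

/-!
# Row 262, road B, ENDS (helper25): bundles which are trivial along the fibres

`itg_iso` : the formula `Tr89.itg_cq` for a subspace which is isometric to a constant one at the
valuations which are trivial on the base field.
-/

set_option autoImplicit false
set_option linter.unusedSectionVars false

noncomputable section

namespace Crest.Agent.X262.Ends

open Crest.Agent.X277 Crest.Agent.X277.BD Crest.Agent.X277.Pst Crest.Agent.X277.BD.Cyc Polynomial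
open Crest.Agent.X262.Hb Crest.Agent.X262.Vb Crest.Agent.X262.Tr89
open List (replicate)

variable {B : Th} {K E : Type} [Field K] [Algebra ℂ K] [Field E] [Algebra ℂ E]
  {P P' : Type} [Fintype P] [Fintype P'] {Ψ : (P' → E) →ₗ[E] (P → E)} {a : P → BD ℂ E}
  {a' : P' → BD ℂ E}

theorem ds_map {V : RZ ℂ E} (h : ∀ u, nm a V (Ψ u) = nm a' V u) (W : Submodule E (P' → E))
    (x : P' → E) : ds a V (W.map Ψ) (Ψ x) = ds a' V W x := by
  refine le_antisymm (le_ds.2 fun w hw => ?_) (le_ds.2 ?_)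
  · rw [← h, map_sub]
    exact ds_le ⟨w, hw, rfl⟩
  · rintro _ ⟨w, hw, rfl⟩
    rw [← map_sub, h]
    exact ds_le hw

variable [Algebra K E] [IsScalarTower ℂ K E]

theorem flag_iso (h : ∀ (V : RZ K E) u, nm a (V.dn ℂ) (Ψ u) = nm a' (V.dn ℂ) u)
    {W U : Submodule E (P' → E)} {l : List (P' → E)} (hl : Flag W l U)
    (h0 : ∀ b ∈ rts a' W l, up K b = 0) :
    Flag (W.map Ψ) (l.map Ψ) (U.map Ψ) ∧ ∀ b ∈ rts a (W.map Ψ) (l.map Ψ), up K b = 0 := by
  induction hl with
  | nil W => exact ⟨Flag.nil _, by simp [rts]⟩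
  | @cons W U x l hx _ ih =>
    rw [rts, List.forall_mem_cons] at h0
    have h1 : Ψ x ∉ W.map Ψ := fun h2 => hx (ds_eq_zero.1
      ((ds_map (h (RZ.top K E)) W x).symm.trans (ds_eq_zero.2 h2)))
    have ih' := ih h0.2
    rw [Submodule.map_sup, Submodule.map_span, Set.image_singleton] at ih'
    refine ⟨Flag.cons h1 ih'.1, ?_⟩
    rw [List.map_cons, rts, List.forall_mem_cons]
    refine ⟨?_, ih'.2⟩
    rw [← h0.1, map_neg, map_neg, neg_inj]
    exact ext' fun V => by rw [val_up, val_up, val_dst h1, val_dst hx, ds_map (h V)]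

theorem ex_one (U : Submodule K (P → K)) :
    ex (fun _ => (1 : E)) U = mapS (IsScalarTower.toAlgHom ℂ K E) U := by
  unfold ex mapS
  congr 1
  ext w
  exact exists_congr fun u => and_congr_right fun _ => by
    rw [eq_comm]
    refine iff_of_eq (congrArg _ (funext fun x => ?_))
    simp [exv]

theorem nm_zero_eq {u : P → E} (hu : u ≠ 0) (V : RZ ℂ E) :
    nm (fun _ => (0 : BD ℂ E)) V u = (mxf ℂ u).val V := by
  obtain ⟨i, hi⟩ := exists_val_mxf (k := ℂ) (Function.ne_iff.1 hu) V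
  refine le_antisymm (nm_le.2 fun x => ?_) ?_
  · rw [val_zero, mul_one]
    exact mem_Sec_mxf u x V
  · simpa [hi] using le_nm (fun _ => (0 : BD ℂ E)) V u i

variable [Algebra.EssFiniteType ℂ K] [CharZero K] [Algebra.EssFiniteType ℂ E]
  [Algebra.EssFiniteType K E]

theorem itg_iso (hB : B.Ax)
    (h : ∀ (V : RZ K E) u, nm a (V.dn ℂ) (Ψ u) = nm (fun _ => (0 : BD ℂ E)) (V.dn ℂ) u)
    {U : Submodule K (P' → K)} {r : ℕ} (hr : Module.finrank K U = r + 1)
    (hd : r + dim ℂ K ≤ dim ℂ E) {u : P' → E} (hu : u ≠ 0) (φ : B.H K) :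
    B.itg E ((B.cq a ((mapS (IsScalarTower.toAlgHom ℂ K E) U).map Ψ)).eval (B.c1 (-sz (Ψ u) a)) *
      B.pb (LP.hom (IsScalarTower.toAlgHom ℂ K E)) φ) =
      bnum (replicate r (mxf K u)) * B.itg K φ := by
  obtain ⟨m, hm⟩ := exists_flag (bot_le : ⊥ ≤ U)
  obtain ⟨h1, h2⟩ := flag_ex (g := fun _ => (1 : E)) (a := fun _ => (0 : BD ℂ E))
    (fun _ => one_ne_zero) (fun _ => by rw [map_zero, pr_one]) hm
  have h3 := hm.finrank
  obtain ⟨h4, h5⟩ := flag_iso h h1 h2
  rw [ex_bot, Submodule.map_bot] at h4 h5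
  rw [ex_one] at h4
  have h6 : Ψ u ≠ 0 := fun h0 => hu (nm_eq_zero.1 ((h (RZ.top K E) u).symm.trans (by
    rw [h0, nm_zero])))
  have h7 : up K (- -sz (Ψ u) a) = mxf K u := by
    rw [neg_neg, ← up_mxf (k := ℂ)]
    exact ext' fun V => by rw [val_up, val_up, val_sz h6, h, nm_zero_eq hu]
  rw [Th.cq, Th.cp, hB.cp2_eq h4, ← h7]
  refine itg_cl hB φ _ ?_ (fun b hb => h5 b hb ▸ Lin.rfl) hd
  rw [length_rts, List.length_map, List.length_map]
  simpa [hr] using h3.symm

end Crest.Agent.X262.Ends
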