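import Crest.Agent.X262.Ends.Pl
import Crest.Agent.X262.Vb.Res
import Crest.Agent.X262.Vb37.Mob

/-!
# Row 262, road B, ENDS (helper25): good reduction of forms and data

* `PR p σ σ'`  : `σ'` is the coefficientwise reduction of `σ`; `PR.hv` : values reduce to values;
* `hv_pf`, `pf_map`, `pr_pf`, `pol` calculus, `hv_syz`, `KS_eq`, `KS_map`;
* `Cst x n`    : the points contain `0, …, n`.
-/

set_option autoImplicit false
set_option linter.unusedSectionVars false

noncomputable section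

namespace Crest.Agent.X262.Ends

open Crest.Agent.X277 Crest.Agent.X277.BD Crest.Agent.X277.Pst Crest.Agent.X277.BD.Cyc Polynomial
open Crest.Agent.X262.Hb Crest.Agent.X262.Vb
open Crest.Agent.X262.Bub96 (hv Tr hv_sum hv_mul hv_zero hv_add hv_smul)
open Crest.Agent.X262.Bub96.Tr (dot)
open Crest.Agent.X262.Vb37 (hev hev_smul hev_hx hv_map hv_C_mul cp_hv)
open Crest.Agent.X262.Node22 (chr scl chr_ne pv_scl mem_Eb mem_Vt)

variable {K E L : Type} [Field K] [Algebra ℂ K] [Field E] [Algebra ℂ E] [Field L] [Algebra ℂ L]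

section PR

variable {p : Pl ℂ L ℂ E} {σ : L[X]} {σ' : E[X]} {n : ℕ}

open Classical in
/-- the scalar which makes the homogeneous coordinates of a point primitive -/
def nx (V : RZ ℂ L) : Option L → L
  | none => 1
  | some t => if t ∈ V.1 then 1 else t⁻¹

theorem nx_ne (V : RZ ℂ L) : ∀ t, nx V t ≠ 0
  | none => one_ne_zero
  | some t => by
    rw [nx]
    split_ifs with h
    · exact one_ne_zero
    · exact inv_ne_zero fun h0 => h (h0 ▸ V.1.zero_mem)

theorem r_hx (p : Pl ℂ L ℂ E) : ∀ (t : Option L) (i : Fin 2),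
    (nx p.V t • hx t) i ∈ p.V.1 ∧ p.r ((nx p.V t • hx t) i) = hx (rx p t) i
  | none, i => by fin_cases i <;> simp [nx, rx, hx]
  | some t, i => by
    by_cases h : t ∈ p.V.1
    · fin_cases i <;> simp [nx, rx, hx, h]
    · have h0 : t ≠ 0 := fun h0 => h (h0 ▸ p.V.1.zero_mem)
      have h1 : p.r t = 0 := dif_neg h
      fin_cases i <;>
        simp [nx, rx, hx, h, h0, Pl.r_inv, h1, (p.V.1.mem_or_inv_mem t).resolve_left h]

theorem r_nat (p : Pl ℂ L ℂ E) (i : ℕ) : p.r i = i := by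
  rw [p.r_eq (natCast_mem _ i)]
  exact map_natCast p.φ i

theorem rx_nat (p : Pl ℂ L ℂ E) (i : ℕ) : rx p (some (i : L)) = some (i : E) := by
  rw [rx, if_pos (natCast_mem _ i), r_nat]

theorem nx_nat (V : RZ ℂ L) (i : ℕ) : nx V (some (i : L)) = 1 := if_pos (natCast_mem _ i)

/-- coefficientwise reduction -/
def PR (p : Pl ℂ L ℂ E) (σ : L[X]) (σ' : E[X]) : Prop :=
  ∀ l, σ.coeff l ∈ p.V.1 ∧ p.r (σ.coeff l) = σ'.coeff l

theorem PR.deg (h : PR p σ σ') (hσ : σ.natDegree ≤ n) : σ'.natDegree ≤ n :=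
  natDegree_le_iff_coeff_eq_zero.2 fun l hl => by
    rw [← (h l).2, natDegree_le_iff_coeff_eq_zero.1 hσ l hl, Pl.r_zero]

theorem PR.hv (h : PR p σ σ') (hσ : σ.natDegree ≤ n) (t : Option L) :
    nx p.V t ^ n * hv n σ t ∈ p.V.1 ∧ p.r (nx p.V t ^ n * hv n σ t) = hv n σ' (rx p t) := by
  have h1 := r_hx p t
  have h2 : ∀ l ∈ Finset.range (n + 1), σ.coeff l * (nx p.V t • hx t) 0 ^ l *
      (nx p.V t • hx t) 1 ^ (n - l) ∈ p.V.1 := fun l _ =>
    mul_mem (mul_mem (h l).1 (pow_mem (h1 0).1 _)) (pow_mem (h1 1).1 _)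
  rw [← hev_hx hσ, ← hev_hx (h.deg hσ), ← hev_smul, hev, hev]
  refine ⟨sum_mem h2, ?_⟩
  rw [Tree87.r_sum _ h2]
  refine Finset.sum_congr rfl fun l _ => ?_
  rw [Pl.r_mul (mul_mem (h l).1 (pow_mem (h1 0).1 _)) (pow_mem (h1 1).1 _),
    Pl.r_mul (h l).1 (pow_mem (h1 0).1 _), Pl.r_pow (h1 0).1, Pl.r_pow (h1 1).1, (h1 0).2, (h1 1).2,
    (h l).2]

theorem exists_pr (h : ∀ l, σ.coeff l ∈ p.V.1) : ∃ σ', PR p σ σ' :=
  ⟨σ.sum fun l a => monomial l (p.r a), fun l => ⟨h l, by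
    rw [Polynomial.sum, finsetSum_coeff]
    simp only [coeff_monomial, Finset.sum_ite_eq', mem_support_iff]
    split_ifs with h0
    · rfl
    · rw [notMem_support_iff.1 h0, Pl.r_zero]⟩⟩

theorem pr_X_pow (p : Pl ℂ L ℂ E) (n : ℕ) : PR p (X ^ n) (X ^ n) := fun l => by
  rw [coeff_X_pow, coeff_X_pow]
  split_ifs <;> simp

theorem PR.add {τ : L[X]} {τ' : E[X]} (h : PR p σ σ') (h' : PR p τ τ') : PR p (σ + τ) (σ' + τ') :=
  fun l => by
    rw [coeff_add, coeff_add, Pl.r_add (h l).1 (h' l).1, (h l).2, (h' l).2]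
    exact ⟨add_mem (h l).1 (h' l).1, rfl⟩

theorem PR.mul {τ : L[X]} {τ' : E[X]} (h : PR p σ σ') (h' : PR p τ τ') : PR p (σ * τ) (σ' * τ') :=
  fun l => by
    have h1 := fun (x : ℕ × ℕ) (_ : x ∈ Finset.HasAntidiagonal.antidiagonal l) =>
      mul_mem (h x.1).1 (h' x.2).1
    rw [coeff_mul, coeff_mul, Tree87.r_sum _ h1]
    exact ⟨sum_mem h1, Finset.sum_congr rfl fun x _ => by
      rw [Pl.r_mul (h _).1 (h' _).1, (h _).2, (h' _).2]⟩

theorem pr_C {a : L} (h : a ∈ p.V.1) : PR p (C a) (C (p.r a)) := fun l => by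
  rw [coeff_C, coeff_C]
  split_ifs <;> simp [h]

theorem pr_zero : PR p 0 0 := by simpa using pr_C p.V.1.zero_mem

theorem PR.sum {ι : Type*} (s : Finset ι) {τ : ι → L[X]} {τ' : ι → E[X]}
    (h : ∀ i ∈ s, PR p (τ i) (τ' i)) : PR p (∑ i ∈ s, τ i) (∑ i ∈ s, τ' i) := by
  classical
  induction s using Finset.induction_on with
  | empty => exact pr_zero
  | insert a s ha ih =>
    rw [Finset.sum_insert ha, Finset.sum_insert ha]
    exact (h a (by simp)).add (ih fun i hi => h i (by simp [hi]))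

theorem PR.uniq {τ' : E[X]} (h : PR p σ σ') (h' : PR p σ τ') : σ' = τ' :=
  Polynomial.ext fun l => (h l).2.symm.trans (h' l).2

end PR

/-- the points contain `0, …, n` -/
def Cst {I : Type} (x : I → Option E) (n : ℕ) : Prop := ∀ i : ℕ, i ≤ n → ∃ q, x q = some (i : E)

theorem Cst.eq_zero {I : Type} {x : I → Option E} {n m : ℕ} (h : Cst x n) (hm : m ≤ n) {σ : E[X]}
    (hσ : σ.natDegree ≤ m) (h0 : ∀ q, hv m σ (x q) = 0) : σ = 0 := by
  have : CharZero E := charZero_of_injective_algebraMap (algebraMap ℂ E).injective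
  refine eq_zero_of_natDegree_lt_card_of_eval_eq_zero σ (f := fun i : Fin (n + 1) => ((i : ℕ) : E))
    (Nat.cast_injective.comp Fin.val_injective) (fun i => ?_) (by simp; omega)
  obtain ⟨q, hq⟩ := h i (Nat.lt_succ_iff.1 i.2)
  simpa [hq] using h0 q

theorem Cst.rx {I : Type} {x : I → Option L} {n : ℕ} (h : Cst x n) (p : Pl ℂ L ℂ E) :
    Cst (fun q => rx p (x q)) n := fun i hi => (h i hi).imp fun _ hq => by
  simp only [hq, rx_nat]

variable {J : Type} [Fintype J] [DecidableEq J] {io : J → Type} [∀ j, Fintype (io j)]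
  [∀ j, DecidableEq (io j)] {A : Type} [Fintype A] {T : Tgt io A} {d κ : J → ℕ}
  {g : (j : J) → io j → E[X]} {q : MvPolynomial (Vr io) ℂ}

theorem hv_pf (hq : MH q κ) (hg : ∀ j i, (g j i).natDegree ≤ d j) :
    (pf g q).natDegree ≤ dot κ d ∧ ∀ t, hv (dot κ d) (pf g q) t = pv (pt d g t) q := by
  have h1 : (∑ j, (κ j : ℤ) * d j) = (dot κ d : ℕ) := by
    simp only [dot]; push_cast; rfl
  have h2 := (Tree87.MZ.of_MH hq).sb hg
  rw [h1] at h2
  exact ⟨Tree87.DL_nat.1 h2.1, fun t => (Tree87.ev_eq_hv _ _ _).symm.trans (h2.2 t)⟩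

theorem pf_map (β : E →ₐ[ℂ] L) (g : (j : J) → io j → E[X]) (q : MvPolynomial (Vr io) ℂ) :
    pf (mpf (β : E →+* L) g) q = (pf g q).map (β : E →+* L) :=
  (MvPolynomial.comp_aeval_apply (fun v : Vr io => g v.1 v.2) (mapAlgHom β) q).symm

theorem pt_map (β : E →ₐ[ℂ] L) (g : (j : J) → io j → E[X]) (t : Option E) :
    pt d (mpf (β : E →+* L) g) (t.map β) = mapP β (pt d g t) :=
  funext fun _ => funext fun _ => hv_map (β : E →+* L) _ _ t

theorem pr_pf {p : Pl ℂ L ℂ E} (hp : Lnr p) {f : (j : J) → io j → L[X]}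
    (h : ∀ j i, PR p (f j i) (g j i)) (q : MvPolynomial (Vr io) ℂ) : PR p (pf f q) (pf g q) := by
  unfold pf
  induction q using MvPolynomial.induction_on with
  | C c =>
    have := pr_C (p := p) (p.V.2 c)
    rw [hp c] at this
    simpa using this
  | add a b ha hb => simpa using ha.add hb
  | mul_X a v ha => simpa using ha.mul (h v.1 v.2)

theorem syz_pf (S : Syz T) (g : (j : J) → io j → E[X]) (b : Fin S.r) :
    ∑ a, pf g (S.ρ b a) * pf g (T.F a) = 0 := by
  have h := congrArg (pf g) (S.syz b)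
  simpa only [pf, map_sum, map_mul, map_zero] using h

theorem coeff_pol (u : Cx T d → E) (a : A) (l : Fin (dot (T.k a) d + 1)) :
    (pol u a).coeff l = u ⟨a, l⟩ := by
  simp [pol, coeff_monomial, Fin.val_inj]

theorem deg_pol (u : Cx T d → E) (a : A) : (pol u a).natDegree ≤ dot (T.k a) d :=
  natDegree_sum_le_of_forall_le _ _ fun l _ =>
    (natDegree_monomial_le _).trans (Nat.lt_succ_iff.1 l.2)

theorem pol_ext {u : Cx T d → E} {a : A} {σ : E[X]} (hσ : σ.natDegree ≤ dot (T.k a) d)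
    (h : ∀ l : Fin (dot (T.k a) d + 1), u ⟨a, l⟩ = σ.coeff l) : pol u a = σ :=
  Polynomial.ext fun l => by
    by_cases hl : l < dot (T.k a) d + 1
    · exact (coeff_pol u a ⟨l, hl⟩).trans (h _)
    · rw [natDegree_le_iff_coeff_eq_zero.1 hσ l (by omega),
        natDegree_le_iff_coeff_eq_zero.1 (deg_pol u a) l (by omega)]

theorem pol_eq_zero {u : Cx T d → E} (h : ∀ a, pol u a = 0) : u = 0 :=
  funext fun x => by rw [← coeff_pol u x.1 x.2, h, coeff_zero, Pi.zero_apply]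

theorem hv_syz (S : Syz T) (hg : ∀ j i, (g j i).natDegree ≤ d j) (u : Cx T d → E) (b : Fin S.r) :
    (∑ a, pf g (S.ρ b a) * pol u a).natDegree ≤ dot (S.e b) d ∧ ∀ t,
      hv (dot (S.e b) d) (∑ a, pf g (S.ρ b a) * pol u a) t =
        ∑ a, pv (pt d g t) (S.ρ b a) * hv (dot (T.k a) d) (pol u a) t := by
  have key : ∀ a, (pf g (S.ρ b a) * pol u a).natDegree ≤ dot (S.e b) d ∧ ∀ t,
      hv (dot (S.e b) d) (pf g (S.ρ b a) * pol u a) t =
        pv (pt d g t) (S.ρ b a) * hv (dot (T.k a) d) (pol u a) t := fun a => by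
    rcases S.hom b a with h | ⟨κ, h1, h2⟩
    · simp [h, pf, pv, hv_zero]
    · have h3 : dot (S.e b) d = dot κ d + dot (T.k a) d := by
        simp only [← h1, dot, Pi.add_apply, add_mul, Finset.sum_add_distrib]
      have h4 := hv_pf h2 hg
      rw [h3]
      exact ⟨natDegree_mul_le.trans (add_le_add h4.1 (deg_pol u a)), fun t => by
        rw [hv_mul h4.1 (deg_pol u a), h4.2]⟩
  exact ⟨natDegree_sum_le_of_forall_le _ _ fun a _ => (key a).1, fun t => by
    rw [hv_sum]; exact Finset.sum_congr rfl fun a _ => (key a).2 t⟩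

theorem KS_eq (S : Syz T) (hg : ∀ j i, (g j i).natDegree ≤ d j) : KS S d g = LinearMap.ker
    (Matrix.of fun (y : Σ b, Fin (dot (S.e b) d + 1)) (x : Cx T d) =>
      (pf g (S.ρ y.1 x.1) * X ^ (x.2 : ℕ)).coeff y.2).mulVecLin := by
  ext u
  have key : ∀ b l, (∑ a, pf g (S.ρ b a) * pol u a).coeff l =
      ∑ x : Cx T d, (pf g (S.ρ b x.1) * X ^ (x.2 : ℕ)).coeff l * u x := fun b l => by
    rw [Fintype.sum_sigma, finsetSum_coeff]
    refine Finset.sum_congr rfl fun a _ => ?_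
    rw [pol, Finset.mul_sum, finsetSum_coeff]
    refine Finset.sum_congr rfl fun i _ => ?_
    rw [← C_mul_X_pow_eq_monomial, mul_left_comm, coeff_C_mul, mul_comm]
  refine ⟨fun h => funext fun y => (key y.1 y.2).symm.trans (by rw [h y.1]; rfl),
    fun h b => Polynomial.ext fun l => ?_⟩
  by_cases hl : l < dot (S.e b) d + 1
  · exact (key b l).trans (congrFun h ⟨b, ⟨l, hl⟩⟩)
  · exact natDegree_le_iff_coeff_eq_zero.1 (hv_syz S hg u b).1 l (by omega)

theorem KS_map (S : Syz T) (hg : ∀ j i, (g j i).natDegree ≤ d j) (β : E →ₐ[ℂ] L) :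
    KS S d (mpf (β : E →+* L) g) = mapS β (KS S d g) := by
  rw [KS_eq S hg, Tree87.mapS_ker, KS_eq (g := mpf _ g) S fun j i => natDegree_map_le.trans (hg j i)]
  congr 2
  ext y x
  simp only [Matrix.of_apply, Matrix.map_apply, pf_map]
  rw [← Polynomial.map_X (β : E →+* L), ← Polynomial.map_pow, ← Polynomial.map_mul, coeff_map]
  rfl

end Crest.Agent.X262.Ends
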