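import Mathlib

/-!
# Row 262, road B, ENDS (helper25): a Rees valuation with generic direction

* `exists_centre` : a valuation ring of a field `K` with prescribed centre on the image of a ring;
* `rees` : for `s` generating an ideal primary to the maximal ideal of a noetherian local domain
  `O ⊆ K` there is a valuation ring of `K` dominating `O` at which the direction `[s]` has
  transcendence degree at least `dim O - 1` over the residue field of `O`.
-/

set_option autoImplicit false
set_option linter.unusedSectionVars false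
set_option linter.style.haveILetI false

noncomputable section

namespace Crest.Agent.X262.Ends

open IsLocalRing MvPolynomial

/-- a valuation ring with prescribed centre -/
theorem exists_centre {R K : Type*} [CommRing R] [Field K] (φ : R →+* K) (P : Ideal R) [P.IsPrime]
    (h : RingHom.ker φ ≤ P) :
    ∃ V : ValuationSubring K, (∀ a, φ a ∈ V) ∧ ∀ a, V.valuation (φ a) < 1 ↔ a ∈ P := by
  have hs : Function.Surjective φ.rangeRestrict := φ.rangeRestrict_surjective
  have hk : RingHom.ker φ.rangeRestrict ≤ P := by rwa [RingHom.ker_rangeRestrict]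
  haveI hP : (P.map φ.rangeRestrict).IsPrime := Ideal.map_isPrime_of_surjective hs hk
  obtain ⟨V, hV⟩ := (LocalSubring.ofPrime φ.range (P.map φ.rangeRestrict)).exists_le_valuationSubring
  have hle := LocalSubring.le_ofPrime φ.range (P.map φ.rangeRestrict)
  have h1 : ∀ a, φ a ∈ V := fun a => hV.1 (hle ⟨a, rfl⟩)
  refine ⟨V, h1, fun a => ?_⟩
  have e1 : a ∈ P ↔ φ.rangeRestrict a ∈ P.map φ.rangeRestrict := by
    rw [← Ideal.mem_comap, Ideal.comap_map_of_surjective _ hs, ← RingHom.ker_eq_comap_bot,
      sup_eq_left.2 hk]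
  have e2 := IsLocalization.AtPrime.to_map_mem_maximal_iff
    (LocalSubring.ofPrime φ.range (P.map φ.rangeRestrict)).toSubring (P.map φ.rangeRestrict)
    (φ.rangeRestrict a)
  haveI := hV.2
  have e3 := (map_mem_nonunits_iff (Subring.inclusion hV.1)
    (algebraMap φ.range (LocalSubring.ofPrime φ.range (P.map φ.rangeRestrict)).toSubring
      (φ.rangeRestrict a)))
  rw [e1, ← e2, mem_maximalIdeal, ← e3]
  exact (V.valuation_lt_one_iff ⟨φ a, h1 a⟩).symm.trans (mem_maximalIdeal _)

section val
variable {O K Γ : Type*} [CommRing O] [Field K] [LinearOrderedCommGroupWithZero Γ]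

theorem val_aeval_le [Algebra O K] (v : Valuation K Γ) (hO : ∀ a : O, v (algebraMap O K a) ≤ 1)
    {σ : Type*} {x : σ → K} (hx : ∀ j, v (x j) ≤ 1) (G : MvPolynomial σ O) :
    v (aeval x G) ≤ 1 := by
  induction G using MvPolynomial.induction_on with
  | C a => rw [aeval_C]; exact hO a
  | add p q hp hq => rw [map_add]; exact v.map_add_le hp hq
  | mul_X p j hp => rw [map_mul, aeval_X, map_mul]; exact mul_le_one' hp (hx j)

theorem val_aeval_sub [Algebra O K] (v : Valuation K Γ) (hO : ∀ a : O, v (algebraMap O K a) ≤ 1)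
    {σ : Type*} {x y : σ → K} (hy : ∀ j, v (y j) ≤ 1) (hxy : ∀ j, v (x j - y j) < 1)
    (G : MvPolynomial σ O) : v (aeval x G - aeval y G) < 1 := by
  have hx : ∀ j, v (x j) ≤ 1 := fun j => by
    have : x j = (x j - y j) + y j := by ring
    rw [this]; exact v.map_add_le (hxy j).le (hy j)
  induction G using MvPolynomial.induction_on with
  | C a => rw [aeval_C, aeval_C, sub_self, map_zero]; exact zero_lt_one
  | add p q hp hq =>
    have : aeval x (p + q) - aeval y (p + q) = (aeval x p - aeval y p) + (aeval x q - aeval y q) := by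
      rw [map_add, map_add]; ring
    rw [this]; exact v.map_add_lt hp hq
  | mul_X p j hp =>
    have : aeval x (p * X j) - aeval y (p * X j)
        = (aeval x p - aeval y p) * x j + aeval y p * (x j - y j) := by
      rw [map_mul, map_mul, aeval_X, aeval_X]; ring
    rw [this]
    refine v.map_add_lt ?_ ?_
    · rw [map_mul]; exact mul_lt_one_of_lt_of_le hp (hx j)
    · rw [map_mul, mul_comm]; exact mul_lt_one_of_lt_of_le (hxy j) (val_aeval_le v hO hy p)

theorem val_unit [Algebra O K] (v : Valuation K Γ) (hO : ∀ a : O, v (algebraMap O K a) ≤ 1)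
    {a : O} (ha : IsUnit a) : v (algebraMap O K a) = 1 := by
  obtain ⟨b, hb⟩ := ha.exists_right_inv
  have h : v (algebraMap O K a) * v (algebraMap O K b) = 1 := by
    rw [← map_mul, ← map_mul, hb, map_one, map_one]
  refine le_antisymm (hO a) ?_
  calc (1 : Γ) = v (algebraMap O K a) * v (algebraMap O K b) := h.symm
    _ ≤ v (algebraMap O K a) * 1 := mul_le_mul_right (hO b) _
    _ = _ := mul_one _

end val

section rees
variable {k O : Type*} (K : Type*) [Field k] [CommRing O] [IsLocalRing O] [Algebra k O] [Field K]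
  [Algebra O K] {ι : Type*}

/-- `t` has the same integral closure as `s` -/
def Red (k : Type*) [Field k] [Algebra k O] (s : ι → O) {N : ℕ} (t : Fin N → O) : Prop :=
  (∀ j, t j ∈ Submodule.span k (Set.range s)) ∧
    ∀ V : ValuationSubring K, (∀ a : O, algebraMap O K a ∈ V) → ∀ γ,
      (∀ j, V.valuation (algebraMap O K (t j)) ≤ γ) → ∀ i, V.valuation (algebraMap O K (s i)) ≤ γ

/-- analytic independence -/
def Ind {l : ℕ} (t : Fin (l + 1) → O) : Prop :=
  algebraMap O K (t 0) ≠ 0 ∧ ∀ G : MvPolynomial (Fin l) O,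
    aeval (fun j => algebraMap O K (t j.succ) / algebraMap O K (t 0)) G = 0 →
      ∀ n, G.coeff n ∈ maximalIdeal O

variable {K}

theorem exists_unit_eval [Infinite k] {σ : Type*} {G : MvPolynomial σ O} {n : σ →₀ ℕ}
    (hn : G.coeff n ∉ maximalIdeal O) :
    ∃ c : σ → k, IsUnit (eval (fun j => algebraMap k O (c j)) G) := by
  by_contra hc
  push Not at hc
  let ψ : k →+* ResidueField O := (residue O).comp (algebraMap k O)
  have hinf : (Set.range ψ).Infinite := Set.infinite_range_of_injective ψ.injective
  have h0 : MvPolynomial.map (residue O) G = 0 := by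
    refine MvPolynomial.funext_set (fun _ => Set.range ψ) (fun _ => hinf) fun x hx => ?_
    choose c hc' using fun j => hx j (Set.mem_univ j)
    have h1 : residue O (eval (fun j => algebraMap k O (c j)) G) = 0 :=
      (residue_eq_zero_iff _).2 ((mem_maximalIdeal _).2 (hc c))
    rw [map_zero, ← h1, MvPolynomial.eval_map, MvPolynomial.eval, MvPolynomial.coe_eval₂Hom,
      MvPolynomial.eval₂_comp_left]
    congr 1
    funext j
    exact (hc' j).symm
  have h2 := congrArg (MvPolynomial.coeff n) h0
  rw [MvPolynomial.coeff_map, MvPolynomial.coeff_zero, residue_eq_zero_iff] at h2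
  exact hn h2

theorem Red.step [Infinite k] {s : ι → O} {l : ℕ} {t : Fin (l + 1) → O} (h : Red K k s t)
    (hi : ¬ Ind K t) : ∃ t' : Fin l → O, Red K k s t' := by
  by_cases h0 : algebraMap O K (t 0) = 0
  · refine ⟨fun j => t j.succ, fun j => h.1 _, fun V hV γ hγ => h.2 V hV γ fun j => ?_⟩
    refine Fin.cases ?_ (fun j => hγ j) j
    rw [h0, map_zero]; exact zero_le
  rw [Ind] at hi
  push Not at hi
  obtain ⟨G, hG, n, hn⟩ := hi h0
  obtain ⟨c, hc⟩ := exists_unit_eval (k := k) hn
  refine ⟨fun j => t j.succ - c j • t 0, fun j => Submodule.sub_mem _ (h.1 _)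
    (Submodule.smul_mem _ _ (h.1 _)), fun V hV γ hγ => ?_⟩
  have hO : ∀ a : O, V.valuation (algebraMap O K a) ≤ 1 := fun a =>
    (V.valuation_le_one_iff _).2 (hV a)
  have ht0 : V.valuation (algebraMap O K (t 0)) ≤ γ := by
    by_contra hlt
    push Not at hlt
    have hp : 0 < V.valuation (algebraMap O K (t 0)) := lt_of_le_of_lt zero_le hlt
    have h1 := val_aeval_sub V.valuation hO
      (x := fun j => algebraMap O K (t j.succ) / algebraMap O K (t 0))
      (y := fun j => algebraMap O K (algebraMap k O (c j))) (fun j => hO _) (fun j => by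
        have e : algebraMap O K (t j.succ) / algebraMap O K (t 0)
            - algebraMap O K (algebraMap k O (c j))
            = algebraMap O K (t j.succ - c j • t 0) / algebraMap O K (t 0) := by
          rw [Algebra.smul_def, map_sub, map_mul]; field_simp
        rw [e, map_div₀, div_lt_one₀ hp]
        exact lt_of_le_of_lt (hγ j) hlt) G
    have e2 : aeval (fun j => algebraMap O K (algebraMap k O (c j))) G
        = algebraMap O K (eval (fun j => algebraMap k O (c j)) G) := by
      rw [MvPolynomial.aeval_def, MvPolynomial.eval, MvPolynomial.coe_eval₂Hom,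
        MvPolynomial.eval₂_comp_left]
      rfl
    rw [hG, zero_sub, Valuation.map_neg, e2, val_unit _ hO hc] at h1
    exact lt_irrefl _ h1
  refine h.2 V hV γ fun j => ?_
  refine Fin.cases ht0 (fun j => ?_) j
  have e : t j.succ = (t j.succ - c j • t 0) + algebraMap k O (c j) * t 0 := by
    rw [Algebra.smul_def]; ring
  rw [e, map_add, map_mul]
  refine V.valuation.map_add_le (hγ j) ?_
  rw [map_mul]
  exact (mul_le_of_le_one_left' (hO _)).trans ht0

theorem Red.le_prime (hinj : Function.Injective (algebraMap O K)) {s : ι → O} {N : ℕ}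
    {t : Fin N → O} (h : Red K k s t) (p : Ideal O) [p.IsPrime] (ht : ∀ j, t j ∈ p) (i : ι) :
    s i ∈ p := by
  obtain ⟨V, hV, hp⟩ := exists_centre (algebraMap O K) p
    (by rw [(RingHom.injective_iff_ker_eq_bot _).1 hinj]; exact bot_le)
  rw [← hp]
  rcases Nat.eq_zero_or_pos N with rfl | hN
  · exact lt_of_le_of_lt (h.2 V hV 0 (fun j => j.elim0) i) zero_lt_one
  · haveI : Nonempty (Fin N) := ⟨⟨0, hN⟩⟩
    obtain ⟨j, hj⟩ := Finite.exists_max fun j => V.valuation (algebraMap O K (t j))
    exact lt_of_le_of_lt (h.2 V hV _ hj i) ((hp _).2 (ht j))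

theorem Red.height_le [IsNoetherianRing O] (hinj : Function.Injective (algebraMap O K))
    {s : ι → O} (hs : ∀ p : Ideal O, p.IsPrime → (∀ i, s i ∈ p) → p = maximalIdeal O)
    (hm : ∀ i, s i ∈ maximalIdeal O) {N : ℕ} {t : Fin N → O} (h : Red K k s t) :
    (maximalIdeal O).height ≤ N := by
  classical
  have htm : ∀ j, t j ∈ maximalIdeal O := fun j => by
    refine Submodule.span_induction (p := fun x _ => x ∈ maximalIdeal O) ?_ ?_ ?_ ?_ (h.1 j)
    · rintro _ ⟨i, rfl⟩; exact hm i
    · exact Ideal.zero_mem _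
    · intro a b _ _ ha hb; exact Ideal.add_mem _ ha hb
    · intro c a _ ha; rw [Algebra.smul_def]; exact Ideal.mul_mem_left _ _ ha
  have hmin : maximalIdeal O ∈ (Ideal.span ((Finset.univ.image t : Finset O) : Set O)).minimalPrimes := by
    refine ⟨⟨inferInstance, Ideal.span_le.2 ?_⟩, fun q hq _ => ?_⟩
    · intro x hx
      obtain ⟨j, -, rfl⟩ := Finset.mem_image.1 hx
      exact htm j
    · haveI := hq.1
      refine (hs q hq.1 (h.le_prime hinj q fun j => hq.2 (Ideal.subset_span ?_))).ge
      exact Finset.mem_coe.2 (Finset.mem_image_of_mem t (Finset.mem_univ j))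
  refine (Ideal.height_le_card_of_mem_minimalPrimes_span_finset hmin).trans ?_
  have := Finset.card_image_le (s := Finset.univ) (f := t)
  rw [Finset.card_univ, Fintype.card_fin] at this
  exact_mod_cast this

/-- **Rees valuation with generic direction.** -/
theorem rees [Infinite k] [IsNoetherianRing O] (hinj : Function.Injective (algebraMap O K))
    [Finite ι] {s : ι → O} (hs : ∀ p : Ideal O, p.IsPrime → (∀ i, s i ∈ p) → p = maximalIdeal O)
    (hm : ∀ i, s i ∈ maximalIdeal O) (hne : maximalIdeal O ≠ ⊥) :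
    ∃ (l : ℕ) (t : Fin (l + 1) → O) (V : ValuationSubring K),
      (maximalIdeal O).height ≤ (l + 1 : ℕ) ∧ (∀ j, t j ∈ Submodule.span k (Set.range s)) ∧
      algebraMap O K (t 0) ≠ 0 ∧ (∀ a : O, algebraMap O K a ∈ V) ∧
      (∀ i, V.valuation (algebraMap O K (s i)) ≤ V.valuation (algebraMap O K (t 0))) ∧
      (∀ j, V.valuation (algebraMap O K (t j)) ≤ V.valuation (algebraMap O K (t 0))) ∧
      ∀ G : MvPolynomial (Fin l) O,
        V.valuation (aeval (fun j => algebraMap O K (t j.succ) / algebraMap O K (t 0)) G) < 1 ↔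
          ∀ n, G.coeff n ∈ maximalIdeal O := by
  classical
  haveI : IsDomain O := hinj.isDomain _
  have key : ∀ (N : ℕ) (t : Fin N → O), Red K k s t →
      ∃ (l : ℕ) (t' : Fin (l + 1) → O), Red K k s t' ∧ Ind K t' := by
    intro N
    induction N with
    | zero =>
      intro t ht
      exact absurd (hs ⊥ Ideal.isPrime_bot (ht.le_prime hinj ⊥ fun j => j.elim0)).symm hne
    | succ N ih =>
      intro t ht
      by_cases hi : Ind K t
      · exact ⟨N, t, ht, hi⟩
      · obtain ⟨t', ht'⟩ := ht.step hi
        exact ih t' ht'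
  obtain ⟨N, ⟨e⟩⟩ := Finite.exists_equiv_fin ι
  obtain ⟨l, t, ht, h0, hi⟩ := key N (fun j => s (e.symm j))
    ⟨fun j => Submodule.subset_span ⟨_, rfl⟩, fun V _ γ hγ i => by simpa using hγ (e i)⟩
  let τ : Fin l → K := fun j => algebraMap O K (t j.succ) / algebraMap O K (t 0)
  let P : Ideal (MvPolynomial (Fin l) O) := RingHom.ker (MvPolynomial.map (residue O))
  have hP : ∀ G, G ∈ P ↔ ∀ n, G.coeff n ∈ maximalIdeal O := fun G => by
    rw [RingHom.mem_ker, MvPolynomial.ext_iff]
    refine forall_congr' fun n => ?_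
    rw [MvPolynomial.coeff_map, MvPolynomial.coeff_zero, residue_eq_zero_iff]
  haveI : P.IsPrime := RingHom.ker_isPrime _
  obtain ⟨V, hV, hc⟩ := exists_centre (aeval τ : MvPolynomial (Fin l) O →ₐ[O] K).toRingHom P
    fun G hG => (hP G).2 (hi G hG)
  have hO : ∀ a : O, algebraMap O K a ∈ V := fun a => by
    have := hV (C a)
    rwa [AlgHom.toRingHom_eq_coe, RingHom.coe_coe, aeval_C] at this
  have hp : 0 < V.valuation (algebraMap O K (t 0)) := by
    rw [zero_lt_iff]; exact (map_ne_zero _).2 h0
  have ht' : ∀ j, V.valuation (algebraMap O K (t j)) ≤ V.valuation (algebraMap O K (t 0)) := by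
    intro j
    refine Fin.cases le_rfl (fun j => ?_) j
    have h1 := hV (X j)
    rw [AlgHom.toRingHom_eq_coe, RingHom.coe_coe, aeval_X, ← V.valuation_le_one_iff, map_div₀,
      div_le_one₀ hp] at h1
    exact h1
  exact ⟨l, t, V, ht.height_le hinj hs hm, ht.1, h0, hO, ht.2 V hO _ ht', ht',
    fun G => (hc G).trans (hP G)⟩

end rees

end Crest.Agent.X262.Ends
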