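import Crest.Agent.X262.Vb.Defs
import Crest.Agent.X262.Tree87.P1

/-!
# Row 262, road B, ENDS (helper25): statements for the numbers `l` and `e`

* `Line T d ν j₁ f` : the trees of multidegree `d` in the target sweep a variety which is
  generically a `P^1`-bundle with generic fibre `f` over the field generated by the factors `j`
  with `ν j ≠ 0`; the factor `j₁` has degree one;
* `Tan T d f`       : a normal direction along `f` with at most a simple pole;
* `Rk T d n f`      : the obstruction space has at most the expected rank;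
* `lin B ν j₁ q₀`   : the insertion `∏_q h_{j₁}(y_q) · ∏_j h_j(y_{q₀})^{ν j}`;
* `RkLStmt`, `RkEStmt`, `ZeroStmt`, `NumStmt`, `NumLStmt`, `NumEStmt`.
-/

set_option autoImplicit false
set_option linter.unusedSectionVars false

noncomputable section

namespace Crest.Agent.X262.Ends

open Crest.Agent.X277 Crest.Agent.X277.BD Polynomial
open Crest.Agent.X262.Hb Crest.Agent.X262.Vb
open Crest.Agent.X262.Bub96 (hv Tr)
open Crest.Agent.X262.Bub96.Tr (dot)

variable {J : Type} [Fintype J] [DecidableEq J] {io : J → Type} [∀ j, Fintype (io j)]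
  [∀ j, DecidableEq (io j)] {A : Type} [Fintype A]

section

variable {K : Type} [Field K] [Algebra ℂ K]

/-- value of a polynomial on a tuple of binary forms -/
def pf (f : (j : J) → io j → K[X]) (q : MvPolynomial (Vr io) ℂ) : K[X] :=
  MvPolynomial.aeval (fun v : Vr io => f v.1 v.2) q

/-- the field generated by the coordinates of the factors `j` with `ν j ≠ 0` -/
def bas (ν : J → ℕ) (y : Pnt io K) : IntermediateField ℂ K :=
  IntermediateField.adjoin ℂ {t | ∃ j i i', ν j ≠ 0 ∧ t = y j i / y j i'}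

/-- the generic line of a family of lines which contains all trees of multidegree `d` -/
structure Line (T : Tgt io A) (d ν : J → ℕ) (j₁ : J) (f : (j : J) → io j → K[X]) : Prop where
  cp : Cp d f
  one : d j₁ = 1
  zero : ∀ j, ν j ≠ 0 → d j = 0
  on : ∀ a, pf f (T.F a) = 0
  gen : bas ν (fun j i => (f j i).coeff 0) = ⊤
  dm : dim ℂ K = ∑ j, ν j
  dj : ∀ j, ν j ≠ 0 → dim ℂ (qf ℂ fun i => (f j i).coeff 0) ≤ ν j
  sw : ∀ q κ, MH q κ → pf f q = 0 → ∀ (E : Type) [Field E] [Algebra ℂ E] (y : Pnt io E),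
    TreePts T d (fun _ : Unit => y) → pv y q = 0

/-- a vector field along the line, tangent to the target, with at most a simple pole at infinity,
and transversal to the swept variety -/
def Tan (T : Tgt io A) (d : J → ℕ) (f : (j : J) → io j → K[X]) : Prop :=
  ∃ δ : Vr io → K[X], (∀ v, (δ v).natDegree ≤ d v.1 + 1) ∧
    (∀ a, ∑ v, pf f (MvPolynomial.pderiv v (T.F a)) * δ v = 0) ∧
    ∃ q κ, MH q κ ∧ pf f q = 0 ∧ ∑ v, pf f (MvPolynomial.pderiv v q) * δ v ≠ 0

/-- sections of the normal bundle along a curve -/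
def nsec (T : Tgt io A) (d : J → ℕ) (f : (j : J) → io j → K[X]) : Submodule K (A → K[X]) :=
  Tree87.Sec (fun a => (dot (T.k a) d : ℤ)) fun p => T.Nm fun j i => hv (d j) (f j i) p

/-- the obstruction space has at most the expected rank -/
def Rk (T : Tgt io A) (d : J → ℕ) (n : ℕ) (f : (j : J) → io j → K[X]) : Prop :=
  ∀ (E : Type) [Field E] [Algebra ℂ E] [IsAlgClosed E] (β : K →ₐ[ℂ] E),
    Module.finrank E (nsec T d fun j i => (f j i).map (β : K →+* E)) + n + 3 ≤ mdim io d 3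

end

/-- the insertion -/
def lin (B : Th) (ν : J → ℕ) (j₁ : J) {M : Type} [Fintype M] (q₀ : M) : MFam B io M :=
  fun E _ _ y => (∏ q, hc B j₁ E (y q)) * ∏ j, hc B j E (y q₀) ^ ν j

/-- rank, the lines fill the target -/
def RkLStmt : Prop :=
  ∀ {J : Type} [Fintype J] [DecidableEq J] {io : J → Type} [∀ j, Fintype (io j)]
    [∀ j, DecidableEq (io j)] {A : Type} [Fintype A] (T : Tgt io A) (c : ℕ) (d ν : J → ℕ) (j₁ : J)
    {K : Type} [Field K] [Algebra ℂ K] [Algebra.EssFiniteType ℂ K] (f : (j : J) → io j → K[X]),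
    Good T c d → Line T d ν j₁ f → ∑ j, ν j + 1 + c = adim io → Rk T d (∑ j, ν j) f

/-- rank, the lines fill a divisor with normal degree `-1` -/
def RkEStmt : Prop :=
  ∀ {J : Type} [Fintype J] [DecidableEq J] {io : J → Type} [∀ j, Fintype (io j)]
    [∀ j, DecidableEq (io j)] {A : Type} [Fintype A] (T : Tgt io A) (c : ℕ) (d ν : J → ℕ) (j₁ : J)
    {K : Type} [Field K] [Algebra ℂ K] [Algebra.EssFiniteType ℂ K] (f : (j : J) → io j → K[X]),
    Good T c d → Line T d ν j₁ f → ∑ j, ν j + 2 + c = adim io → Tan T d f → Rk T d (∑ j, ν j) f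

/-- too many base classes vanish on the trees -/
def ZeroStmt : Prop :=
  ∀ (B : Th), B.Ax → ∀ {J : Type} [Fintype J] [DecidableEq J] {io : J → Type}
    [∀ j, Fintype (io j)] [∀ j, DecidableEq (io j)] {A : Type} [Fintype A] (T : Tgt io A)
    (d ν : J → ℕ) (j₁ : J) {K : Type} [Field K] [Algebra ℂ K] [Algebra.EssFiniteType ℂ K]
    (f : (j : J) → io j → K[X]), Line T d ν j₁ f → ∀ ν' : J → ℕ, (∀ j, ν' j ≠ 0 → ν j ≠ 0) →
    ∑ j, ν j < ∑ j, ν' j → ∀ (E : Type) [Field E] [Algebra ℂ E] (y : Pnt io E),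
    TreePts T d (fun _ : Unit => y) → ∏ j, hc B j E y ^ ν' j = 0

/-- the number is positive -/
def NumStmt : Prop :=
  ∀ (B : Th), B.Ax → ∀ {J : Type} [Fintype J] [DecidableEq J] {io : J → Type}
    [∀ j, Fintype (io j)] [∀ j, DecidableEq (io j)] {A : Type} [Fintype A] (T : Tgt io A) (c : ℕ)
    (d ν : J → ℕ) (j₁ : J) {K : Type} [Field K] [Algebra ℂ K] [Algebra.EssFiniteType ℂ K]
    (f : (j : J) → io j → K[X]), Good T c d → Line T d ν j₁ f → Rk T d (∑ j, ν j) f →
    ∀ {M : Type} [Fintype M] (q₀ : M), Fintype.card M = 3 →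
    ∃ N : ℝ, 0 < N ∧ GW B T d (lin B ν j₁ q₀) = N

/-- the number of the class `l` -/
def NumLStmt : Prop :=
  ∀ (B : Th), B.Ax → ∀ {J : Type} [Fintype J] [DecidableEq J] {io : J → Type}
    [∀ j, Fintype (io j)] [∀ j, DecidableEq (io j)] {A : Type} [Fintype A] (T : Tgt io A) (c : ℕ)
    (d ν : J → ℕ) (j₁ : J) {K : Type} [Field K] [Algebra ℂ K] [Algebra.EssFiniteType ℂ K]
    (f : (j : J) → io j → K[X]), Good T c d → Line T d ν j₁ f → ∑ j, ν j + 1 + c = adim io →
    ∀ {M : Type} [Fintype M] (q₀ : M), Fintype.card M = 3 → GW B T d (lin B ν j₁ q₀) ≠ 0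

/-- the number of the class `e` -/
def NumEStmt : Prop :=
  ∀ (B : Th), B.Ax → ∀ {J : Type} [Fintype J] [DecidableEq J] {io : J → Type}
    [∀ j, Fintype (io j)] [∀ j, DecidableEq (io j)] {A : Type} [Fintype A] (T : Tgt io A) (c : ℕ)
    (d ν : J → ℕ) (j₁ : J) {K : Type} [Field K] [Algebra ℂ K] [Algebra.EssFiniteType ℂ K]
    (f : (j : J) → io j → K[X]), Good T c d → Line T d ν j₁ f → ∑ j, ν j + 2 + c = adim io →
    Tan T d f →
    ∀ {M : Type} [Fintype M] (q₀ : M), Fintype.card M = 3 → GW B T d (lin B ν j₁ q₀) ≠ 0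

theorem numL_of (h : NumStmt) (h' : RkLStmt) : NumLStmt := by
  intro B hB J _ _ io _ _ A _ T c d ν j₁ K _ _ _ f hG hL hc M _ q₀ hM
  obtain ⟨N, hN, e⟩ := h B hB T c d ν j₁ f hG hL (h' T c d ν j₁ f hG hL hc) q₀ hM
  rw [e]
  exact_mod_cast hN.ne'

theorem numE_of (h : NumStmt) (h' : RkEStmt) : NumEStmt := by
  intro B hB J _ _ io _ _ A _ T c d ν j₁ K _ _ _ f hG hL hc hT M _ q₀ hM
  obtain ⟨N, hN, e⟩ := h B hB T c d ν j₁ f hG hL (h' T c d ν j₁ f hG hL hc hT) q₀ hM
  rw [e]
  exact_mod_cast hN.ne'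

end Crest.Agent.X262.Ends
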