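import Crest.Agent.X262.Ends.Red
import Crest.Agent.X262.Ends.Iso
import Crest.Agent.X262.Vb37.Univ

/-!
# Row 262, road B, ENDS (helper25): the contribution of a component of good reduction

* `pr_eg`, `y_eg`, `V_eg` : the reduction of the configuration of a datum with good reduction;
* `Eb_cfg` : the obstruction space of a datum;  `nm_ev` : evaluation is an isometry;
* `term`   : the integral of the integrand of `vir` over a component of good reduction.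
-/

set_option autoImplicit false
set_option linter.unusedSectionVars false

noncomputable section

namespace Crest.Agent.X262.Ends

open Crest.Agent.X277 Crest.Agent.X277.BD Crest.Agent.X277.Pst Crest.Agent.X277.BD.Cyc Polynomial
open Crest.Agent.X262.Hb Crest.Agent.X262.Vb
open Crest.Agent.X262.Geo (essFT_Rf)
open Crest.Agent.X262.Bub96 (hv Tr hv_sum hv_mul hv_zero hv_add hv_smul)
open Crest.Agent.X262.Bub96.Tr (dot)
open Crest.Agent.X262.Vb37 (hev hev_smul hev_hx hv_map hv_C_mul cp_hv)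
open Crest.Agent.X262.Node22 (chr scl chr_ne pv_scl mem_Eb mem_Vt)
open Crest.Agent.X262.Tree87 (GoodS)

variable {K E L : Type} [Field K] [Algebra ℂ K] [Field E] [Algebra ℂ E] [Field L] [Algebra ℂ L]
  {I : Type} [Fintype I]

theorem v_hv_le {V : RZ ℂ L} {σ : L[X]} {m : ℕ} (hσ : σ.natDegree ≤ m) {γ : V.1.ValueGroup}
    (h : ∀ l, V.v (σ.coeff l) ≤ γ) (t : Option L) : V.v (nx V t ^ m * hv m σ t) ≤ γ := by
  have h1 : ∀ i, V.v ((nx V t • hx t) i) ≤ 1 := fun i => RZ.le_one_iff.2 (r_hx (plV V) t i).1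
  rw [← hev_hx hσ, ← hev_smul, hev]
  refine Valuation.map_sum_le _ fun l _ => ?_
  rw [map_mul, map_mul, map_pow, map_pow]
  exact (mul_le_of_le_one_right' (pow_le_one' (h1 1) _)).trans
    ((mul_le_of_le_one_right' (pow_le_one' (h1 0) _)).trans (h l))

theorem Cst.v_le {V : RZ ℂ L} {x : I → Option L} {n m : ℕ} (hx : Cst x n) (hm : m ≤ n) {σ : L[X]}
    (hσ : σ.natDegree ≤ m) {γ : V.1.ValueGroup}
    (h : ∀ q, V.v (nx V (x q) ^ m * hv m σ (x q)) ≤ γ) (l : ℕ) : V.v (σ.coeff l) ≤ γ := by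
  by_cases h0 : σ.coeff l = 0
  · simp [h0]
  have h1 : ∀ l, σ.coeff l ≠ 0 → l < m + 1 := fun l h =>
    Nat.lt_succ_of_le ((le_natDegree_of_ne_zero h).trans hσ)
  obtain ⟨l₀, h2, h3⟩ := Tree87.exists_prim V (u := fun l : Fin (m + 1) => σ.coeff l)
    (Function.ne_iff.2 ⟨⟨l, h1 l h0⟩, h0⟩)
  have h4 : ∀ l, (C (σ.coeff l₀)⁻¹ * σ).coeff l ∈ V.1 := fun l => by
    rw [coeff_C_mul]
    by_cases h5 : σ.coeff l = 0
    · simp [h5]
    · exact h3 ⟨l, h1 l h5⟩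
  obtain ⟨σ', h5⟩ := exists_pr (p := plV V) h4
  have h6 := (natDegree_C_mul_le (σ.coeff l₀)⁻¹ σ).trans hσ
  have h7 : σ' ≠ 0 := fun h7 => by
    have := (h5 l₀).2
    rw [coeff_C_mul, inv_mul_cancel₀ h2, Pl.r_one, h7, coeff_zero] at this
    exact one_ne_zero this
  obtain ⟨q, hq⟩ := not_forall.1 fun h8 => h7 ((hx.rx (plV V)).eq_zero hm (h5.deg h6) h8)
  rw [← (h5.hv h6 _).2, ← Ne, Pl.r_ne_zero_iff, hv_C_mul, mul_left_comm, map_mul, map_inv₀,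
    inv_mul_eq_one₀ (RZ.ne_zero_iff.2 h2)] at hq
  have h8 := RZ.le_one_iff.2 (h4 l)
  rw [coeff_C_mul, map_mul, map_inv₀, inv_mul_le_one₀ (zero_lt_iff.2 (RZ.ne_zero_iff.2 h2))] at h8
  exact h8.trans (hq.le.trans (h q))

variable {J : Type} [Fintype J] [DecidableEq J] {io : J → Type} [∀ j, Fintype (io j)]
  [∀ j, DecidableEq (io j)] {A : Type} [Fintype A] {T : Tgt io A} {d κ : J → ℕ}
  {g : (j : J) → io j → E[X]} {p : Pl ℂ L ℂ E} {ξ : Dat io d I L} {n : ℕ}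

/-- the gauge which makes the points primitive -/
def eg (V : RZ ℂ L) (ξ : Dat io d I L) : I → J → L := fun q j => nx V (ξ.x q) ^ d j

theorem eg_ne (V : RZ ℂ L) (ξ : Dat io d I L) (q : I) (j : J) : eg V ξ q j ≠ 0 :=
  pow_ne_zero _ (nx_ne _ _)

theorem chr_eg (V : RZ ℂ L) (ξ : Dat io d I L) (q : I) (κ : J → ℕ) :
    chr (eg V ξ q) κ = nx V (ξ.x q) ^ dot κ d := by
  simp only [chr, eg, dot, ← pow_mul, Finset.prod_pow_eq_pow_sum, mul_comm (d _)]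

/-- the reduced datum -/
def rdat (p : Pl ℂ L ℂ E) (ξ : Dat io d I L) (hg : Cp d g) : Dat io d I E :=
  ⟨g, fun q => rx p (ξ.x q), hg⟩

theorem y_eg (h : ∀ j i, PR p (ξ.f j i) (g j i)) (hg : Cp d g) :
    ((ξ.cfg.gau (eg p.V ξ)).red0 p).y = (rdat p ξ hg).cfg.y :=
  funext fun q => funext fun j => funext fun i => ((h j i).hv (ξ.cp.1 j i) (ξ.x q)).2

theorem pr_eg (h : ∀ j i, PR p (ξ.f j i) (g j i)) (hg : Cp d g) :
    (ξ.cfg.gau (eg p.V ξ)).Pr p.V := fun q j =>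
  ⟨fun i => ((h j i).hv (ξ.cp.1 j i) (ξ.x q)).1, (cp_hv hg j (rx p (ξ.x q))).imp fun i hi =>
    Pl.r_ne_zero_iff.1 (((h j i).hv (ξ.cp.1 j i) (ξ.x q)).2.trans_ne hi)⟩

theorem mem_eg {σ : L[X]} (hσ : σ.natDegree ≤ dot κ d) (V : RZ ℂ L) :
    (fun q => nx V (ξ.x q) ^ dot κ d * hv (dot κ d) σ (ξ.x q)) ∈ (ξ.cfg.gau (eg V ξ)).V κ :=
  ⟨_, Dat.mem_cfg.2 ⟨σ, hσ, rfl⟩, funext fun q => congrArg (· * _) (chr_eg V ξ q κ)⟩

theorem V_eg (hg : Cp d g) (hx : Cst ξ.x n) (hκ : dot κ d ≤ n) :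
    ((ξ.cfg.gau (eg p.V ξ)).red0 p).V κ = (rdat p ξ hg).cfg.V κ := by
  refine le_antisymm (redS_le ?_) fun w hw => ?_
  · rintro _ ⟨_, hu, rfl⟩ hi
    obtain ⟨σ, hσ, rfl⟩ := Dat.mem_cfg.1 hu
    have h1 : ∀ q, (∏ j, eg p.V ξ q j ^ κ j) = _ := fun q => chr_eg p.V ξ q κ
    simp only [LinearMap.pi_apply, LinearMap.smul_apply, LinearMap.proj_apply, smul_eq_mul, h1]
      at hi ⊢
    obtain ⟨σ', h2⟩ := exists_pr (p := p) fun l =>
      RZ.le_one_iff.1 (hx.v_le hκ hσ (fun q => RZ.le_one_iff.2 (hi q)) l)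
    exact Dat.mem_cfg.2 ⟨σ', h2.deg hσ, funext fun q => (h2.hv hσ _).2.symm⟩
  · obtain ⟨σ, hσ, rfl⟩ := Dat.mem_cfg.1 hw
    have h1 : (fun q => hv (dot κ d) σ ((rdat p ξ hg).x q)) = ∑ l ∈ Finset.range (dot κ d + 1),
        σ.coeff l • fun q => hv (dot κ d) (X ^ l) (rx p (ξ.x q)) := by
      funext q
      conv_lhs => rw [σ.as_sum_range_C_mul_X_pow' (Nat.lt_succ_of_le hσ)]
      simp only [hv_sum, hv_C_mul, Finset.sum_apply, Pi.smul_apply, smul_eq_mul, rdat]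
    rw [h1]
    refine Submodule.sum_mem _ fun l hl => Submodule.smul_mem _ _ ?_
    have h2 : (X ^ l : L[X]).natDegree ≤ dot κ d := by
      simpa [Nat.lt_succ_iff] using hl
    have h3 := fun q => (pr_X_pow p l).hv h2 (ξ.x q)
    have h4 := mem_redS p (mem_eg h2 p.V) fun q => (h3 q).1
    simp only [fun q => (h3 q).2] at h4
    exact h4

theorem ea_eg (h : ∀ j i, PR p (ξ.f j i) (g j i)) (hg : Cp d g) :
    ((ξ.cfg.gau (eg p.V ξ)).red0 p).ea T = (rdat p ξ hg).cfg.ea T := by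
  unfold Cfg.ea
  rw [y_eg h hg]

theorem Eb_eg (h : ∀ j i, PR p (ξ.f j i) (g j i)) (hg : Cp d g) (hx : Cst ξ.x n)
    (hk : ∀ a, dot (T.k a) d ≤ n) :
    ((ξ.cfg.gau (eg p.V ξ)).red0 p).Eb T = (rdat p ξ hg).cfg.Eb T := by
  ext σ
  simp only [mem_Eb, y_eg h hg, V_eg hg hx (hk _)]

variable (T d) in
/-- evaluation of sections at points -/
def evP (x : I → Option E) : (Cx T d → E) →ₗ[E] (A × I → E) where
  toFun u y := hv (dot (T.k y.1) d) (pol u y.1) (x y.2)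
  map_add' u u' := funext fun y => by simp [pol, Finset.sum_add_distrib, hv_add]
  map_smul' c u := funext fun y => by
    simp [pol, ← C_mul_monomial, ← Finset.mul_sum, hv_C_mul]

theorem on_pt (hg : Cp d g) (hO : ∀ a, pf g (T.F a) = 0) (t : Option E) : T.On (pt d g t) :=
  fun a => by rw [← (hv_pf (T.hom a) hg.1).2, hO, hv_zero]

theorem reg_pt {S : Syz T} {c : ℕ} (hS : GoodS S c d) (hg : Cp d g) (hO : ∀ a, pf g (T.F a) = 0)
    (t : Option E) : S.Reg c (pt d g t) := by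
  let α := IsScalarTower.toAlgHom ℂ E (AlgebraicClosure E)
  have h1 : Cp d (mpf (α : E →+* AlgebraicClosure E) g) := hg.map _
  rw [← S.reg_map c α, ← pt_map]
  exact hS _ (Tr.leaf d (mpf (α : E →+* AlgebraicClosure E) g)) ⟨h1.1, cp_hv h1⟩ rfl
    (fun x => on_pt h1 (fun a => by rw [pf_map, hO, Polynomial.map_zero]) x.2) ((), t.map α)

theorem Eb_cfg {S : Syz T} {c : ℕ} (hS : GoodS S c d) (ζ : Dat io d I E)
    (hO : ∀ a, pf ζ.f (T.F a) = 0) (hx : Cst ζ.x n) (he : ∀ b, dot (S.e b) d ≤ n) :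
    ζ.cfg.Eb T = (KS S d ζ.f).map (evP T d ζ.x) := by
  refine le_antisymm (fun w hw => ?_) ?_
  · obtain ⟨h1, h2⟩ := mem_Eb.1 hw
    choose σ h3 h4 using fun a => Dat.mem_cfg.1 (h1 a)
    have h5 : ∀ a, pol (T := T) (d := d) (fun y => (σ y.1).coeff y.2) a = σ a := fun a =>
      pol_ext (h3 a) fun _ => rfl
    have h6 : evP T d ζ.x (fun y => (σ y.1).coeff y.2) = w := funext fun y =>
      (congrArg (hv _ · _) (h5 y.1)).trans (congrFun (h4 y.1) y.2)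
    refine ⟨_, fun b => hx.eq_zero (he b) (hv_syz S ζ.cp.1 _ b).1 fun q => ?_, h6⟩
    rw [(hv_syz S ζ.cp.1 _ b).2, ← S.rho_Nm (on_pt ζ.cp hO (ζ.x q)) (h2 q) b, ← h6]
    rfl
  · rintro _ ⟨u, hu, rfl⟩
    refine mem_Eb.2 ⟨fun a => Dat.mem_cfg.2 ⟨_, deg_pol u a, rfl⟩,
      fun q => (reg_pt hS ζ.cp hO (ζ.x q)).2 _ fun b => ?_⟩
    have := (hv_syz S ζ.cp.1 u b).2 (ζ.x q)
    rw [hu b, hv_zero] at this
    exact this.symm

theorem nm_ev (h : ∀ j i, PR p (ξ.f j i) (g j i)) (hg : Cp d g) (hx : Cst ξ.x n)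
    (hk : ∀ a, dot (T.k a) d ≤ n) (u : Cx T d → L) :
    nm (ξ.cfg.ea T) p.V (evP T d ξ.x u) = nm (fun _ => (0 : BD ℂ L)) p.V u := by
  rw [← nm_scl (c := fun y : A × I => chr (eg p.V ξ y.2) (T.k y.1)) fun y => chr_ne (eg_ne _ _ _) _,
    ← Cfg.ea_gau T (Dat.cfg_nz ξ) (eg_ne _ _)]
  refine nm_congr fun γ => ?_
  simp only [(pr_eg h hg).val_ea, val_zero, mul_one, chr_eg]
  refine ⟨fun h1 y => ?_, fun h1 y => v_hv_le (deg_pol u y.1) (fun l => ?_) _⟩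
  · rw [← coeff_pol u y.1 y.2]
    exact hx.v_le (hk _) (deg_pol u _) (fun q => h1 (y.1, q)) _
  · by_cases hl : l < dot (T.k y.1) d + 1
    · exact (coeff_pol u y.1 ⟨l, hl⟩).symm ▸ h1 ⟨y.1, ⟨l, hl⟩⟩
    · simp [natDegree_le_iff_coeff_eq_zero.1 (deg_pol u y.1) l (by omega)]

theorem pr_eqc {τ : L} {u : Cx T d → E} (h1 : ∀ y, τ * eqc T d ξ.f y ∈ p.V.1)
    (h2 : ∀ y, u y = p.r (τ * eqc T d ξ.f y)) (a : A) :
    PR p (C τ * pf ξ.f (T.F a)) (pol u a) := fun l => by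
  rw [coeff_C_mul]
  by_cases hl : l < dot (T.k a) d + 1
  · exact ⟨h1 ⟨a, ⟨l, hl⟩⟩, ((coeff_pol u a ⟨l, hl⟩).trans (h2 _)).symm⟩
  · simp [natDegree_le_iff_coeff_eq_zero.1 (deg_pol u a) l (by omega),
      natDegree_le_iff_coeff_eq_zero.1 (hv_pf (T.hom a) ξ.cp.1).1 l (by omega)]

theorem mem_KS (S : Syz T) (hp : Lnr p) (h : ∀ j i, PR p (ξ.f j i) (g j i)) {τ : L}
    {u : Cx T d → E} (h1 : ∀ a, PR p (C τ * pf ξ.f (T.F a)) (pol u a)) : u ∈ KS S d g := fun b => by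
  have h2 := PR.sum Finset.univ fun a _ => (pr_pf hp h (S.ρ b a)).mul (h1 a)
  simp only [mul_left_comm _ (C τ), ← Finset.mul_sum, syz_pf, mul_zero] at h2
  exact h2.uniq pr_zero

theorem pb_dv {B : Th} (hB : B.Ax) {p : LP L E} (h : ∀ j i, PR p.toPl (ξ.f j i) (g j i))
    (hg : Cp d g) {τ : L} {u : Cx T d → E} (h1 : ∀ a, PR p.toPl (C τ * pf ξ.f (T.F a)) (pol u a))
    (hu : evP T d (rdat p.toPl ξ hg).x u ≠ 0) : B.pb p (B.c1 (ξ.cfg.dv T)) =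
      B.c1 (-sz (evP T d (rdat p.toPl ξ hg).x u) ((rdat p.toPl ξ hg).cfg.ea T)) := by
  have hP := pr_eg h hg
  set z := ξ.cfg.gau (eg p.V ξ) with hz
  have h2 : ∀ y : A × I, (τ • z.sv T) y = nx p.V (ξ.x y.2) ^ dot (T.k y.1) d *
      hv (dot (T.k y.1) d) (C τ * pf ξ.f (T.F y.1)) (ξ.x y.2) := fun y => by
    rw [hv_C_mul, (hv_pf (T.hom y.1) ξ.cp.1).2, hz, Cfg.sv_gau, ← chr_eg, mul_left_comm]
    rfl
  have h3 := fun y : A × I => (h1 y.1).hv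
    ((natDegree_C_mul_le _ _).trans (hv_pf (T.hom y.1) ξ.cp.1).1) (ξ.x y.2)
  have h4 : (fun y => p.r ((τ • z.sv T) y)) = evP T d (rdat p.toPl ξ hg).x u :=
    funext fun y => (congrArg p.r (h2 y)).trans (h3 y).2
  obtain ⟨y, hy⟩ := Function.ne_iff.1 hu
  have h5 : p.V.v ((τ • z.sv T) y) = 1 := Pl.r_ne_zero_iff.1 ((congrFun h4 y).trans_ne hy)
  have h6 : nm (z.ea T) p.V (τ • z.sv T) = 1 := by
    refine le_antisymm (nm_le.2 fun y => ?_) ?_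
    · rw [hP.val_ea, mul_one, h2]
      exact RZ.le_one_iff.2 (h3 y).1
    · simpa only [h5, hP.val_ea, mul_one] using le_nm (z.ea T) p.V (τ • z.sv T) y
  have h7 : τ • z.sv T ≠ 0 := fun h0 => by simp [h0] at h6
  have h8 : B.c1 (ξ.cfg.dv T) = -B.c1 (sz (τ • z.sv T) (z.ea T)) := by
    rw [sz_smul (right_ne_zero_of_smul h7) (left_ne_zero_of_smul h7), map_add, hB.c1_pr, zero_add,
      ← Cfg.dv_gau T (Dat.cfg_nz ξ) (eg_ne p.V ξ), Cfg.dv, map_neg]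
  rw [h8, map_neg, hB.pb_c1_res p ((val_sz h7 _ _).trans h6), res_sz _ (hP.val_ea T) h6, h4, map_neg,
    ← ea_eg h hg, Cfg.ea_red0 T hP]

theorem evP_ne {x : I → Option E} (hx : Cst x n) (hk : ∀ a, dot (T.k a) d ≤ n) {u : Cx T d → E}
    (hu : u ≠ 0) : evP T d x u ≠ 0 := fun h => hu (pol_eq_zero fun a =>
  hx.eq_zero (hk a) (deg_pol u a) fun q => congrFun h (a, q))

theorem cp_scf (hg : Cp d g) {s : J → E} (hs : ∀ j, s j ≠ 0) : Cp d (scf s g) := by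
  have := Vb37.cp_mob hg (g := 1) (by simp) hs
  simp only [Vb37.mob_one (hg.1 _ _)] at this
  exact this

theorem GR.ne {f : (j : J) → io j → L[X]} {s : J → L} (h : GR p f s g) (j : J) : s j ≠ 0 := by
  obtain ⟨i, l, h1⟩ := h.one j
  intro h0
  rw [← h.red, h0, zero_mul, Pl.r_zero] at h1
  exact zero_ne_one h1

theorem GR.pr {f : (j : J) → io j → L[X]} {s : J → L} (h : GR p f s g) (j : J) (i : io j) :
    PR p (scf s f j i) (g j i) := fun l => by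
  rw [scf, coeff_C_mul]
  exact ⟨h.mem j i l, h.red j i l⟩

/-- the rescaled datum -/
def sdat (ξ : Dat io d I L) {s : J → L} (hs : ∀ j, s j ≠ 0) : Dat io d I L :=
  ⟨scf s ξ.f, ξ.x, cp_scf ξ.cp hs⟩

theorem geq_sdat (ξ : Dat io d I L) {s : J → L} (hs : ∀ j, s j ≠ 0) :
    ξ.cfg.Geq (sdat ξ hs).cfg := Vb37.eqv_cfg (Vb37.eqv_of_scl rfl hs fun _ _ => rfl)

theorem on_red_of_pr (h : ∀ j i, PR p (ξ.f j i) (g j i)) (hg : Cp d g)
    (hO : ∀ a, pf g (T.F a) = 0) : (ξ.cfg.red p).On T :=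
  (((Cfg.geq_gau _ (eg_ne p.V ξ)).red_red0 (pr_eg h hg)).on T).1 fun q => by
    rw [y_eg h hg]
    exact on_pt hg hO _

section Term

variable {B : Th} {S : Syz T} {c : ℕ} {M : Type} {W : RZ ℂ L} [Algebra.EssFiniteType ℂ L]
  [Algebra.EssFiniteType ℂ K] [CharZero K] [Algebra K (Rf W)] [IsScalarTower ℂ K (Rf W)]
  [Algebra.EssFiniteType K (Rf W)] {g : (j : J) → io j → K[X]}

theorem term (hB : B.Ax) (hS : GoodS S c d) (m : M → I) (hx : Cst ξ.x n)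
    (hk : ∀ a, dot (T.k a) d ≤ n) (he : ∀ b, dot (S.e b) d ≤ n) (hW : Dvs W) {x : M → Option K}
    (hg : Cp d g) (hO : ∀ a, pf g (T.F a) = 0)
    (h : ∀ j i, PR (plV W) (ξ.f j i) (mpf (IsScalarTower.toAlgHom ℂ K (Rf W) : K →+* Rf W) g j i))
    (hm : ∀ q, rx (plV W) (ξ.x (m q)) = (x q).map (IsScalarTower.toAlgHom ℂ K (Rf W))) {τ : L}
    {u : Cx T d → Rf W} (h1 : ∀ a, PR (plV W) (C τ * pf ξ.f (T.F a)) (pol u a)) (hu : u ≠ 0)
    {Φ : MFam B io M} (hΦ : MCls B T Φ) {r : ℕ} (hr : Module.finrank K (KS S d g) = r + 1)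
    (hd : r + dim ℂ K ≤ dim ℂ (Rf W)) : B.itg (Rf W) (trm B T ξ.cfg m Φ W) =
      bnum (List.replicate r (mxf K u)) * B.itg K (Φ K fun q => pt d g (x q)) := by
  have := essFT_Rf hW
  set ι := IsScalarTower.toAlgHom ℂ K (Rf W) with hι
  have hg' : Cp d (mpf (ι : K →+* Rf W) g) := hg.map _
  have hO' : ∀ a, pf (mpf (ι : K →+* Rf W) g) (T.F a) = 0 := fun a => by
    rw [pf_map, hO, Polynomial.map_zero]
  have h2 := (Cfg.geq_gau _ (eg_ne (plV W).V ξ)).red_red0 (pr_eg h hg')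
  have h3 := (Dat.cfg_nz ξ).red (plV W)
  have h4 := hx.rx (plV W)
  have h5 : (Φ (Rf W) fun q => (ξ.cfg.red (plV W)).y (m q)) =
      B.pb (LP.hom ι) (Φ K fun q => pt d g (x q)) := by
    rw [← hΦ.geq h2 h3 (on_red_of_pr h hg' hO'), hΦ.nat K _ (LP.hom ι) (fun q => pt d g (x q))
      (fun q => prim_hom ι fun j => cp_hv hg j _) fun q => on_pt hg hO _, y_eg h hg']
    congr 1
    funext q
    rw [redP_hom, ← pt_map, ← hm]
    rfl
  have h6 : ∀ (V : RZ K (Rf W)) (u : Cx T d → Rf W),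
      nm ((rdat (plV W) ξ hg').cfg.ea T) (V.dn ℂ) (evP T d (rdat (plV W) ξ hg').x u) =
        nm (fun _ => (0 : BD ℂ (Rf W))) (V.dn ℂ) u := fun V u =>
    nm_ev (p := plV (V.dn ℂ)) (g := mpf (Tr89.rh ι (V.dn ℂ) V.2 : K →+* Rf (V.dn ℂ)) g)
      (fun j i l => by
        simp only [rdat, mpf, coeff_map]
        exact ⟨V.2 _, rfl⟩) (hg.map _) h4 hk u
  have h7 : (rdat (plV W) ξ hg').cfg.Eb T =
      (mapS ι (KS S d g)).map (evP T d (rdat (plV W) ξ hg').x) := by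
    rw [← KS_map S hg.1]
    exact Eb_cfg hS (rdat (plV W) ξ hg') hO' h4 he
  have h8 := pb_dv hB (p := LP.at W) h hg' h1 (evP_ne h4 hk hu)
  rw [trm, h5, ← exc_geq hB h2 h3, h8, exc, ea_eg h hg', Eb_eg h hg' hx hk, h7]
  exact itg_iso hB h6 hr hd hu _

end Term

end Crest.Agent.X262.Ends
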